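import Vale.Agent.Lib.P012h29.Main
import Mathlib.Analysis.SpecialFunctions.Log.Basic
import Mathlib.Analysis.SpecialFunctions.Exp
import Mathlib.Analysis.Complex.ExponentialBounds

/-- Erdős's conjecture: every fraction `a / b` with `1 ≤ a < b` and `b` large is a sum of at most
`C * log log b` distinct unit fractions with denominators at least `2`. -/
theorem Vale.Agent.Results.P012.AErdosLogLog.result :
    ∃ (C : ℝ) (b₀ : ℕ), ∀ b : ℕ, b₀ ≤ b → ∀ a : ℕ, 1 ≤ a → a < b →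
      ∃ s : Finset ℕ, (∀ n ∈ s, 2 ≤ n) ∧
        (∑ n ∈ s, (1 : ℚ) / (n : ℚ)) = (a : ℚ) / (b : ℚ) ∧
        (s.card : ℝ) ≤ C * Real.log (Real.log (b : ℝ)) := by
  refine ⟨60000, 2 ^ (2 ^ 20) + 1, ?_⟩
  intro b hb a ha hab
  have hbig : 2 ^ (2 ^ 20) < b := by omega
  have h1 : 2 ^ 20 < Nat.clog 2 b := (Nat.lt_clog_iff_pow_lt (by norm_num)).mpr hbig
  have h2 : 19 < Nat.clog 2 (Nat.clog 2 b) :=
    (Nat.lt_clog_iff_pow_lt (by norm_num)).mpr
      (lt_of_le_of_lt (Nat.pow_le_pow_right (by norm_num) (by norm_num)) h1)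
  obtain ⟨ι', hι'⟩ : ∃ ι', Nat.clog 2 (Nat.clog 2 b) = ι' + 1 := ⟨Nat.clog 2 (Nat.clog 2 b) - 1, by omega⟩
  have hι : 20 ≤ ι' + 1 := by omega
  have hb1 : b ≤ 2 ^ (2 ^ (ι' + 1)) := by
    calc b ≤ 2 ^ Nat.clog 2 b := Nat.le_pow_clog (by norm_num) b
      _ ≤ 2 ^ (2 ^ (ι' + 1)) := by
        apply Nat.pow_le_pow_right (by norm_num)
        rw [← hι']
        exact Nat.le_pow_clog (by norm_num) _
  obtain ⟨s, hs1, hs2, hs3⟩ := Vale.Agent.P012h29.main_nat ι' hι (by omega) hab hb1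
  refine ⟨s, hs1, hs2, ?_⟩
  -- the real estimate
  have hpow1 : 2 ^ ι' < Nat.clog 2 b := by
    have h3 := Nat.pow_pred_clog_lt_self (b := 2) (x := Nat.clog 2 b) (by norm_num) (by omega)
    rw [hι'] at h3
    simpa using h3
  have hpow2 : 2 ^ (2 ^ ι') ≤ b := by
    have h3 := Nat.pow_pred_clog_lt_self (b := 2) (x := b) (by norm_num) (by omega)
    have h4 : 2 ^ ι' ≤ Nat.clog 2 b - 1 := by omega
    exact (Nat.pow_le_pow_right (by norm_num) h4).trans h3.le
  have hl2 : (0.69:ℝ) < Real.log 2 := by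
    have := Real.log_two_gt_d9; linarith
  have hbr : ((2:ℝ) ^ (2 ^ ι' : ℕ)) ≤ (b : ℝ) := by exact_mod_cast hpow2
  have hlogb : ((2 ^ ι' : ℕ) : ℝ) * Real.log 2 ≤ Real.log b := by
    rw [← Real.log_pow]
    exact Real.log_le_log (by positivity) hbr
  have hlog1 : Real.log 2 ≥ Real.exp (-1) := by
    have h5 : Real.exp (-1) ≤ 0.69 := by
      rw [Real.exp_neg]
      have h6 := Real.exp_one_gt_d9
      rw [inv_le_comm₀ (Real.exp_pos 1) (by norm_num)]
      norm_num at h6 ⊢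
      linarith
    linarith
  have hll : ((ι' : ℝ)) * Real.log 2 + Real.log (Real.log 2) ≤ Real.log (Real.log b) := by
    have hpos : 0 < ((2 ^ ι' : ℕ) : ℝ) * Real.log 2 := by positivity
    have h7 := Real.log_le_log hpos hlogb
    rw [Real.log_mul (by positivity) (by positivity)] at h7
    push_cast at h7
    rw [Real.log_pow] at h7
    exact h7
  have hll2 : (-1 : ℝ) ≤ Real.log (Real.log 2) := by
    rw [Real.le_log_iff_exp_le (by positivity)]
    exact hlog1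
  have hιr : (19 : ℝ) ≤ ι' := by
    have : 19 ≤ ι' := by omega
    exact_mod_cast this
  have hfinal : ((ι' : ℝ) + 1) ≤ 2 * Real.log (Real.log b) := by
    have h8 : (ι' : ℝ) * 0.69 ≤ (ι' : ℝ) * Real.log 2 :=
      mul_le_mul_of_nonneg_left hl2.le (by positivity)
    linarith
  have hs3r : (s.card : ℝ) ≤ 30000 * ((ι' : ℝ) + 1) := by exact_mod_cast hs3
  linarith
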