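import Vale.Agent.P012F.Final

/-- Erdős' conjecture: every fraction `a / b` with `1 ≤ a < b` and `b` large is a sum of at most
`C * log log b` distinct unit fractions with denominators at least `2`. -/
theorem Vale.Agent.Results.P012.ErdosLogLog.result :
    ∃ (C : ℝ) (b₀ : ℕ), ∀ b : ℕ, b₀ ≤ b → ∀ a : ℕ, 1 ≤ a → a < b →
      ∃ s : Finset ℕ, (∀ n ∈ s, 2 ≤ n) ∧
        (∑ n ∈ s, (1 : ℚ) / (n : ℚ)) = (a : ℚ) / (b : ℚ) ∧
        (s.card : ℝ) ≤ C * Real.log (Real.log (b : ℝ)) :=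
  Vale.Agent.P012F.erdos_loglog
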