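import Vale.Agent.Lib.P012.Final

/-- Every fraction `a / b` with `1 ≤ a < b` and `b` large is a sum of at most
`C * log log b * log log log b` distinct unit fractions with denominators at least `2`. -/
theorem Vale.Agent.Results.P012.LogLogBound.result :
    ∃ (C : ℝ) (b₀ : ℕ), ∀ b : ℕ, b₀ ≤ b → ∀ a : ℕ, 1 ≤ a → a < b →
      ∃ s : Finset ℕ, (∀ n ∈ s, 2 ≤ n) ∧
        (∑ n ∈ s, (1 : ℚ) / (n : ℚ)) = (a : ℚ) / (b : ℚ) ∧
        (s.card : ℝ) ≤ C * Real.log (Real.log (b : ℝ)) * Real.log (Real.log (Real.log (b : ℝ))) := by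
  refine ⟨90000, 2 ^ (4 * 22 * 2 ^ 22), ?_⟩
  intro b hb a ha hab
  obtain ⟨I, hI, hb1, hb2⟩ := Vale.Agent.P012.exists_level b 22 hb
  obtain ⟨s, h1, h2, h3⟩ := Vale.Agent.P012.main_nat a b I hI hb1 hb2 (by omega) hab
  refine ⟨s, h1, h2, ?_⟩
  have h4 : (s.card : ℝ) ≤ (((2 * I + 3) + 1 + 2 * Vale.Agent.P012.chainTerms I : ℕ) : ℝ) := by
    exact_mod_cast h3
  exact h4.trans (Vale.Agent.P012.final_estimate b I hI hb1)
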